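import Vale.Agent.P235.ST.H317.Defs

/-! P235, (ST) O(1): costs of walks (r10, first part). -/

set_option autoImplicit false

namespace Vale.Agent.P235.STO.H12

open SimpleGraph

variable {V : Type}

theorem cost_append {G : SimpleGraph V} (w : V → ℝ) {x y z : V} (p : G.Walk x y)
    (q : G.Walk y z) : cost w (p.append q) = cost w p + cost w q := by
  induction p with
  | nil => simp [cost]
  | cons h p ih => rw [Walk.cons_append, cost, cost, ih, add_assoc]

theorem cost_reverse {G : SimpleGraph V} (w : V → ℝ) {x y : V} (p : G.Walk x y) :
    cost w p.reverse = cost w p := by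
  induction p with
  | nil => rfl
  | cons h p ih =>
    rw [Walk.reverse_cons, cost_append, ih, cost, cost, cost, abs_sub_comm]
    ring

theorem cost_nonneg {G : SimpleGraph V} (w : V → ℝ) {x y : V} (p : G.Walk x y) :
    0 ≤ cost w p := by
  induction p with
  | nil => exact le_rfl
  | cons h p ih => rw [cost]; positivity

theorem abs_le_cost {G : SimpleGraph V} (w : V → ℝ) {x y : V} (p : G.Walk x y) :
    |w y - w x| ≤ cost w p := by
  induction p with
  | nil => simp [cost]
  | @cons a b c h p ih =>
    rw [cost]
    calc |w c - w a| = |(w c - w b) + (w b - w a)| := by ring_nf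
      _ ≤ |w c - w b| + |w b - w a| := abs_add_le _ _
      _ ≤ |w a - w b| + cost w p := by rw [abs_sub_comm (w b) (w a)]; linarith

theorem cost_dropUntil {G : SimpleGraph V} [DecidableEq V] (w : V → ℝ) {x y z : V}
    (p : G.Walk x y) (h : z ∈ p.support) : cost w (p.dropUntil z h) ≤ cost w p := by
  have h1 := cost_append w (p.takeUntil z h) (p.dropUntil z h)
  rw [Walk.take_spec] at h1
  have h2 := cost_nonneg w (p.takeUntil z h)
  linarith

theorem cost_bypass {G : SimpleGraph V} [DecidableEq V] (w : V → ℝ) {x y : V}
    (p : G.Walk x y) : cost w p.bypass ≤ cost w p := by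
  induction p with
  | nil => exact le_rfl
  | @cons a b c h p ih =>
    rw [Walk.bypass]
    split_ifs with hs
    · refine (cost_dropUntil w _ hs).trans (ih.trans ?_)
      rw [cost]
      linarith [abs_nonneg (w a - w b)]
    · rw [cost, cost]
      linarith

end Vale.Agent.P235.STO.H12
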