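import Vale.Agent.P235.ST.H12.Cost

/-! P235, (ST) O(1): r10, second part (`vert`, `hop_cost`). -/

set_option autoImplicit false

namespace Vale.Agent.P235.STO.H12

open SimpleGraph

variable {V : Type} (W : LWorld V)

theorem d_nonneg (x y : V) : 0 ≤ W.d x y := Nat.cast_nonneg _

theorem vert {ρ' w : V → ℝ} (hρ : W.Scale ρ') (hw : W.Inv ρ' w) {a b : V}
    (g : W.G.Walk a b) :
    (31 / 32) * |(W.u b : ℝ) - W.u a| - 8 * e1 * ρ' a ≤ cost w g := by
  have h1 := abs_le_cost w g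
  have ha := abs_le.1 (hw.close a)
  have hb := abs_le.1 (hw.close b)
  have hl := abs_le.1 (hρ.lip a b)
  have hr := hρ.nonneg a
  have hd := d_nonneg W a b
  set Δ := |(W.u b : ℝ) - W.u a| with hΔ
  have hΔ0 : 0 ≤ Δ := abs_nonneg _
  have hk : W.d a b / kap = 2 ^ 22 * W.d a b := by unfold kap; field_simp
  rw [hk] at hl
  have he : e1 = 1 / 2 ^ 120 := rfl
  have he0 : 0 < e1 := by rw [he]; positivity
  -- the main inequality
  have h2 : Δ ≤ cost w g + 2 * e1 * ρ' a + 2 * e1 * ρ' b := by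
    have h3 : Δ ≤ |w b - w a| + 2 * e1 * ρ' a + 2 * e1 * ρ' b := by
      rw [hΔ, abs_le]
      have h4 := abs_le.1 (le_refl |w b - w a|)
      constructor <;> linarith [h4.1, h4.2, ha.1, ha.2, hb.1, hb.2]
    linarith
  have h3 : e1 * ρ' b ≤ e1 * ρ' a + e1 * (2 ^ 22 * W.d a b) := by
    rw [← mul_add]
    exact mul_le_mul_of_nonneg_left (by linarith [hl.1]) he0.le
  have hc0 := cost_nonneg w g
  have hr0 : 0 ≤ e1 * ρ' a := mul_nonneg he0.le hr
  rcases le_or_gt (C1 * d1 * ρ' a) (W.d a b) with h4 | h4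
  · have h5 := hw.lb a b g h4
    have h6 : W.d a b ≤ 2 ^ 10 * cost w g := by
      unfold c2 at h5
      linarith
    have h7 : e1 * (2 ^ 22 * W.d a b) ≤ (1 / 2 ^ 88) * cost w g := by
      rw [he]
      calc (1 / 2 ^ 120 : ℝ) * (2 ^ 22 * W.d a b) ≤ 1 / 2 ^ 120 * (2 ^ 22 * (2 ^ 10 * cost w g)) := by
            gcongr
        _ = (1 / 2 ^ 88) * cost w g := by ring
    linarith
  · have h5 : e1 * (2 ^ 22 * W.d a b) ≤ (1 / 2 ^ 60) * (e1 * ρ' a) := by
      calc e1 * (2 ^ 22 * W.d a b) ≤ e1 * (2 ^ 22 * (C1 * d1 * ρ' a)) := by gcongr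
        _ = (2 ^ 22 * C1 * d1) * (e1 * ρ' a) := by ring
        _ ≤ (1 / 2 ^ 60) * (e1 * ρ' a) := by
          apply mul_le_mul_of_nonneg_right _ hr0
          unfold C1 d1
          norm_num
    linarith

theorem hop_cost {ρ' w : V → ℝ} (hρ : W.Scale ρ') (hw : W.Inv ρ' w) {a b : V}
    (g : W.G.Walk a b) (hg : g.IsPath) (hin : ∀ z ∈ g.support, z ≠ a → z ≠ b → z ∉ W.N)
    (ha : ρ' a ≤ 4 / kap) : (4 / 5) * (g.length : ℝ) ≤ cost w g := by
  classical
  obtain ⟨m, hm, hlen⟩ := W.hop a b g hg hin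
  have hlenR : |(W.u m : ℝ) - W.u a| + |(W.u b : ℝ) - W.u m| = (g.length : ℝ) := by
    exact_mod_cast hlen
  rcases Nat.eq_zero_or_pos g.length with h0 | h0
  · rw [h0, Nat.cast_zero, mul_zero]
    exact cost_nonneg w g
  have hn : (1 : ℝ) ≤ g.length := by exact_mod_cast h0
  have e := cost_append w (g.takeUntil m hm) (g.dropUntil m hm)
  rw [Walk.take_spec] at e
  have h1 := vert W hρ hw (g.takeUntil m hm)
  have h2 := vert W hρ hw (g.dropUntil m hm)
  have hd : W.d a m ≤ g.length := by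
    have h3 : W.G.dist a m ≤ (g.takeUntil m hm).length := dist_le _
    have h4 := g.length_takeUntil_le hm
    unfold LWorld.d
    exact_mod_cast h3.trans h4
  have hl := abs_le.1 (hρ.lip a m)
  have hk : W.d a m / kap = 2 ^ 22 * W.d a m := by unfold kap; field_simp
  have hk4 : 4 / kap = 2 ^ 24 := by unfold kap; norm_num
  rw [hk] at hl
  rw [hk4] at ha
  have hρm : ρ' m ≤ 2 ^ 24 + 2 ^ 22 * (g.length : ℝ) := by linarith [hl.1]
  have he : e1 = 1 / 2 ^ 120 := rfl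
  have he0 : 0 < e1 := by rw [he]; positivity
  have h5 : 8 * e1 * ρ' a ≤ (1 / 2 ^ 90) := by
    calc 8 * e1 * ρ' a ≤ 8 * e1 * 2 ^ 24 := by gcongr
      _ ≤ 1 / 2 ^ 90 := by rw [he]; norm_num
  have h6 : 8 * e1 * ρ' m ≤ (1 / 2 ^ 90) * (g.length : ℝ) := by
    calc 8 * e1 * ρ' m ≤ 8 * e1 * (2 ^ 24 + 2 ^ 22 * (g.length : ℝ)) := by gcongr
      _ ≤ 8 * e1 * (2 ^ 25 * (g.length : ℝ)) := by
        gcongr
        nlinarith
      _ ≤ (1 / 2 ^ 90) * (g.length : ℝ) := by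
        rw [he]
        nlinarith
  rw [e]
  linarith

end Vale.Agent.P235.STO.H12
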